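import Mathlib

/-!
# P231, stage 3, block S3-a: iteration of a map which decreases an energy on a compact space
-/

set_option linter.unusedSectionVars false

open Set Filter Topology

namespace Vale.Agent.P231.S3A

variable {X : Type*} [TopologicalSpace X] [CompactSpace X] [T2Space X]

/-- the attractor of a continuous map of a compact space -/
def att (S : X → X) : Set X := ⋂ n : ℕ, range (S^[n])

theorem range_anti (S : X → X) : Antitone fun n : ℕ => range (S^[n]) := by
  intro n m hnm
  obtain ⟨k, rfl⟩ := Nat.exists_eq_add_of_le hnm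
  rintro _ ⟨x, rfl⟩
  exact ⟨S^[k] x, (Function.iterate_add_apply S n k x).symm⟩

theorem isCompact_range_iter {S : X → X} (hS : Continuous S) (n : ℕ) :
    IsCompact (range (S^[n])) := isCompact_range (hS.iterate n)

/-- the attractor is mapped onto itself -/
theorem att_surj {S : X → X} (hS : Continuous S) {u : X} (hu : u ∈ att S) :
    ∃ v ∈ att S, S v = u := by
  have h1 : (⋂ n : ℕ, (S ⁻¹' {u} ∩ range (S^[n]))).Nonempty := by
    refine IsCompact.nonempty_iInter_of_sequence_nonempty_isCompact_isClosed _ ?_ ?_ ?_ ?_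
    · intro n
      exact inter_subset_inter_right _ (range_anti S (Nat.le_succ n))
    · intro n
      have h2 : u ∈ range (S^[n + 1]) := mem_iInter.1 hu (n + 1)
      obtain ⟨x, hx⟩ := h2
      refine ⟨S^[n] x, ?_, ⟨x, rfl⟩⟩
      rw [mem_preimage, mem_singleton_iff, ← Function.iterate_succ_apply' S n x]
      exact hx
    · exact ((isClosed_singleton.preimage hS).inter (isCompact_range_iter hS 0).isClosed).isCompact
    · intro n
      exact (isClosed_singleton.preimage hS).inter (isCompact_range_iter hS n).isClosed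
  obtain ⟨v, hv⟩ := h1
  rw [mem_iInter] at hv
  exact ⟨v, mem_iInter.2 fun n => (hv n).2, (hv 0).1⟩

/-- **Dichotomy**: after many steps every point has small energy or is close to the critical
points of the level `E₀`. -/
theorem attract {S : X → X} (hS : Continuous S) {E : X → ℝ} (hE : Continuous E)
    (hmono : ∀ x, E (S x) ≤ E x) {E₀ : ℝ}
    (hcrit : ∀ x, E (S x) = E x → E x < E₀ ∨ E x = E₀) {W : Set X} (hW : IsOpen W)
    (hcW : ∀ x, E (S x) = E x → E x = E₀ → S x ∈ W) :
    ∃ N : ℕ, ∀ n ≥ N, ∀ x, E (S^[n] x) < E₀ ∨ S^[n] x ∈ W := by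
  -- the energy on the attractor
  have hatt : IsCompact (att S) :=
    (isClosed_iInter fun n => (isCompact_range_iter hS n).isClosed).isCompact
  have hle : ∀ x ∈ att S, E x ≤ E₀ := by
    intro x hx
    obtain ⟨u, hu, hmax⟩ := hatt.exists_isMaxOn ⟨x, hx⟩ hE.continuousOn
    obtain ⟨v, hv, hvu⟩ := att_surj hS hu
    have h1 : E v ≤ E u := hmax hv
    have h2 : E u ≤ E v := by rw [← hvu]; exact hmono v
    have h3 : E (S v) = E v := by rw [hvu]; exact le_antisymm h2 h1
    have h4 : E v ≤ E₀ := by
      rcases hcrit v h3 with h | h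
      · exact h.le
      · exact h.le
    exact (hmax hx).trans (h2.trans h4)
  have hsub : att S ⊆ {x | E x < E₀} ∪ W := by
    intro u hu
    rcases (hle u hu).lt_or_eq with h | h
    · exact Or.inl h
    · right
      obtain ⟨v, hv, hvu⟩ := att_surj hS hu
      have h1 : E v ≤ E₀ := hle v hv
      have h2 : E (S v) ≤ E v := hmono v
      rw [hvu, h] at h2
      have h3 : E v = E₀ := le_antisymm h1 h2
      have h4 : E (S v) = E v := by rw [hvu, h, h3]
      rw [← hvu]
      exact hcW v h4 h3
  have hopen : IsOpen ({x | E x < E₀} ∪ W) := (isOpen_lt hE continuous_const).union hW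
  obtain ⟨N, hN⟩ : ∃ N : ℕ, range (S^[N]) ⊆ {x | E x < E₀} ∪ W :=
    exists_subset_nhds_of_isCompact' (directed_of_isDirected_le (range_anti S))
      (isCompact_range_iter hS) (fun n => (isCompact_range_iter hS n).isClosed)
      (fun x hx => hopen.mem_nhds (hsub hx))
  refine ⟨N, fun n hn x => ?_⟩
  exact hN (range_anti S hn ⟨x, rfl⟩)

end Vale.Agent.P231.S3A
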