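import Vale.Agent.P231.S3A.Poly

/-!
# P231, stage 3, block S3-a: the dichotomy for closed polygons of perimeter `< 4 D`
-/

set_option maxSynthPendingDepth 3
set_option linter.unusedSectionVars false
set_option linter.unusedVariables false

open Bundle Manifold Set Filter Module
open scoped ContDiff Manifold Topology

namespace Vale.Agent.P231.S3A

noncomputable section

open Vale.Agent.P234 Vale.Agent.P231 Vale.Agent.P231.H775 Vale.Agent.P231.Fm Vale.Agent.P231.W
open Vale.Agent.P231.H766 Vale.Agent.P231.WD3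

variable {E : Type*} [NormedAddCommGroup E] [NormedSpace ℝ E] [FiniteDimensional ℝ E]
  {M : Type*} [MetricSpace M] [ChartedSpace E M] [IsManifold 𝓘(ℝ, E) ∞ M]
  [RiemannianBundle (fun x : M => TangentSpace 𝓘(ℝ, E) x)]
  [IsContMDiffRiemannianBundle 𝓘(ℝ, E) ∞ E (fun x : M => TangentSpace 𝓘(ℝ, E) x)]
  {e : ∀ x : M, TangentSpace 𝓘(ℝ, E) x → M}
  [CompactSpace M] [ConnectedSpace M] [IsRiemannianManifold 𝓘(ℝ, E) M] {D : ℝ}
  {m : ℕ} [NeZero m]

theorem gm_per (F : Facts e) (hD : 0 < D) (hB : InjGE e D) (hdiam : ∀ p q : M, dist p q ≤ D)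
    (v : UT E M) (t : ℝ) : gm e (v, t + 2 * D) = gm e (v, t) :=
  gam_per F hD.le (fun (x : M) (v : E) hv => closed_of_inj_diam F hD hB hdiam x v hv)
    (foot v) (vec' v) v.2 t

theorem gp_succ (F : Facts e) (hD : 0 < D) (hB : InjGE e D) (hdiam : ∀ p q : M, dist p q ≤ D)
    (v : UT E M) (i : ZMod m) : gp e D m v (i + 1) = gm e (v, (i.val + 1) * (2 * D / m)) := by
  have hm : (0 : ℝ) < m := Nat.cast_pos.2 (NeZero.pos m)
  have h1 : (i + 1).val = (i.val + 1) % m := by
    have h2 : (((i.val + 1 : ℕ) : ZMod m)) = i + 1 := by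
      rw [Nat.cast_succ, ZMod.natCast_zmod_val]
    rw [← h2, ZMod.val_natCast]
  rcases Nat.lt_or_ge (i.val + 1) m with h2 | h2
  · unfold gp
    rw [h1, Nat.mod_eq_of_lt h2]
    push_cast
    rfl
  · have h3 : i.val + 1 = m := le_antisymm (ZMod.val_lt i) h2
    have h4 : ((i.val : ℝ) + 1) = m := by exact_mod_cast h3
    unfold gp
    rw [h1, h3, Nat.mod_self, Nat.cast_zero, h4, zero_mul]
    have h5 := gm_per F hD hB hdiam v 0
    rw [zero_add] at h5
    rw [← h5]
    congr 2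
    field_simp

/-- the midpoint polygon of a geodesic polygon is a geodesic polygon -/
theorem Mp_gp (F : Facts e) (hD : 0 < D) (hB : InjGE e D) (hdiam : ∀ p q : M, dist p q ≤ D)
    (hm : 2 * D / m < D) (v : UT E M) :
    Mp e (gp e D m v) = gp e D m (phi F (v, D / m)) := by
  have hm0 : (0 : ℝ) < m := Nat.cast_pos.2 (NeZero.pos m)
  funext i
  unfold Mp mid
  rw [gp_succ F hD hB hdiam v i]
  unfold gp
  rw [gm_phi]
  have h1 := gG_gam F hB (nm_vec' v) (s := i.val * (2 * D / m)) (t := (i.val + 1) * (2 * D / m))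
    (by
      rw [show ((i.val : ℝ) + 1) * (2 * D / m) - i.val * (2 * D / m) = 2 * D / m by ring,
        abs_of_pos (by positivity)]
      exact hm) (1 / 2)
  refine h1.trans ?_
  change gam e (foot v) (vec' v) _ = gam e (foot v) (vec' v) _
  congr 1
  ring

theorem continuousOn_Mp (F : Facts e) (hB : InjGE e D) :
    ContinuousOn (Mp e : (ZMod m → M) → ZMod m → M) {z | ∀ i, sd z i < D} := by
  refine continuousOn_pi.2 fun i => ?_
  have h1 : ContinuousOn (fun z : ZMod m → M => (z i, z (i + 1))) {z | ∀ i, sd z i < D} :=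
    ((continuous_apply i).prodMk (continuous_apply (i + 1))).continuousOn
  exact (continuousOn_mid F hB).comp h1 fun z hz => hz i

/-- the midpoint map on closed polygons with short sides -/
def Sp (F : Facts e) (hB : InjGE e D) {ρ L : ℝ} (hρ : ρ < D) (z : PS M m ρ L) : PS M m ρ L :=
  ⟨Mp e z.1, Mp_mem F hB hρ z.2⟩

theorem continuous_Sp (F : Facts e) (hB : InjGE e D) {ρ L : ℝ} (hρ : ρ < D) :
    Continuous (Sp F hB hρ : PS M m ρ L → PS M m ρ L) :=
  Continuous.subtype_mk ((continuousOn_Mp F hB).comp_continuous continuous_subtype_val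
    fun z i => (z.2.1 i).trans_lt hρ) _

theorem Sp_iter (F : Facts e) (hB : InjGE e D) {ρ L : ℝ} (hρ : ρ < D) (n : ℕ)
    (z : PS M m ρ L) : ((Sp F hB hρ)^[n] z).1 = (Mp e)^[n] z.1 := by
  induction n with
  | zero => rfl
  | succ n ih =>
    rw [Function.iterate_succ_apply', Function.iterate_succ_apply', ← ih]
    rfl

theorem compactSpace_PS (ρ L : ℝ) : CompactSpace (PS M m ρ L) :=
  isCompact_iff_compactSpace.1 (isClosed_PS ρ L).isCompact

theorem Mp_iter_mem (F : Facts e) (hB : InjGE e D) {ρ L : ℝ} (hρ : ρ < D) (n : ℕ)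
    {z : ZMod m → M} (hz : z ∈ PS M m ρ L) : (Mp e)^[n] z ∈ PS M m ρ L := by
  rw [← Sp_iter F hB hρ n ⟨z, hz⟩]
  exact Subtype.property _

/-- the energy does not increase -/
theorem En_Mp_le' (F : Facts e) (hB : InjGE e D) {z : ZMod m → M} (hz : ∀ i, sd z i < D) :
    En (Mp e z) ≤ En z := by
  have h1 := En_Mp_le F hB hz
  have h2 : 0 ≤ ∑ i, (sd z i - sd z (i + 1)) ^ 2 := Finset.sum_nonneg fun i _ => sq_nonneg _
  linarith

theorem En_iter_le (F : Facts e) (hB : InjGE e D) {ρ L : ℝ} (hρ : ρ < D) {z : ZMod m → M}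
    (hz : z ∈ PS M m ρ L) {j n : ℕ} (hjn : j ≤ n) : En ((Mp e)^[n] z) ≤ En ((Mp e)^[j] z) := by
  induction n, hjn using Nat.le_induction with
  | base => exact le_rfl
  | succ n _ ih =>
    rw [Function.iterate_succ_apply']
    exact (En_Mp_le' F hB fun i => ((Mp_iter_mem F hB hρ n hz).1 i).trans_lt hρ).trans ih

/-- **the dichotomy for closed polygons** of perimeter `≤ L < 4 D` and sides `≤ ρ < D`: after
many midpoint steps, a polygon has energy `< (2 D)² / m` or is close to the geodesic polygons -/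
theorem dichotomy (F : Facts e) (hD : 0 < D) (hB : InjGE e D) (hdiam : ∀ p q : M, dist p q ≤ D)
    {ρ L : ℝ} (hρ : ρ < D) (hL : L < 4 * D) {W : Set (ZMod m → M)} (hW : IsOpen W)
    (hgW : ∀ v : UT E M, gp e D m v ∈ W) :
    ∃ N : ℕ, ∀ n ≥ N, ∀ z ∈ PS M m ρ L,
      En ((Mp e)^[n] z) < (2 * D) ^ 2 / m ∨ (Mp e)^[n] z ∈ W := by
  have hm0 : (0 : ℝ) < m := Nat.cast_pos.2 (NeZero.pos m)
  have hE0 : 0 < (2 * D) ^ 2 / m := by positivity
  have := compactSpace_PS (M := M) (m := m) ρ L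
  have hcr : ∀ z : PS M m ρ L, En (Sp F hB hρ z).1 = En z.1 → En z.1 = 0 ∨
      (En z.1 = (2 * D) ^ 2 / m ∧ (∀ i, sd z.1 i = 2 * D / m) ∧ ∃ v : UT E M, z.1 = gp e D m v) :=
    fun z hz => crit_eq F hD hB hdiam (fun i => (z.2.1 i).trans_lt hρ) (z.2.2.trans_lt hL) hz
  obtain ⟨N, hN⟩ := attract (X := PS M m ρ L) (S := Sp F hB hρ) (continuous_Sp F hB hρ)
    (E := fun z => En z.1) (continuous_En.comp continuous_subtype_val)
    (fun z => En_Mp_le' F hB fun i => (z.2.1 i).trans_lt hρ) (E₀ := (2 * D) ^ 2 / m)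
    (fun z hz => by
      rcases hcr z hz with h | h
      · left
        show En z.1 < _
        rw [h]
        exact hE0
      · exact Or.inr h.1)
    (W := Subtype.val ⁻¹' W) (hW.preimage continuous_subtype_val)
    (fun z hz hz0 => by
      rcases hcr z hz with h | ⟨_, h2, v, hv⟩
      · exact absurd (h.symm.trans hz0) hE0.ne
      · show Mp e z.1 ∈ W
        have h3 : 2 * D / m < D := by rw [← h2 0]; exact (z.2.1 0).trans_lt hρ
        rw [hv, Mp_gp F hD hB hdiam h3]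
        exact hgW _)
  refine ⟨N, fun n hn z hz => ?_⟩
  have h1 := hN n hn ⟨z, hz⟩
  rw [mem_preimage] at h1
  rw [Sp_iter F hB hρ n ⟨z, hz⟩] at h1
  exact h1

/-- a polygon of energy `< (2 D)² / m` has perimeter `< 2 D` -/
theorem Pe_lt (hD : 0 < D) {z : ZMod m → M} (h : En z < (2 * D) ^ 2 / m) : Pe z < 2 * D := by
  have hm0 : (0 : ℝ) < m := Nat.cast_pos.2 (NeZero.pos m)
  have h1 := Pe_sq_le z
  have h2 : (m : ℝ) * En z < (2 * D) ^ 2 := by
    have h3 := mul_lt_mul_of_pos_left h hm0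
    rwa [mul_div_cancel₀ _ hm0.ne'] at h3
  exact lt_of_pow_lt_pow_left₀ 2 (by linarith) (h1.trans_lt h2)

/-- **collapse**: below the energy `(2 D)² / m` all polygons shrink, uniformly -/
theorem collapse (F : Facts e) (hD : 0 < D) (hB : InjGE e D) (hdiam : ∀ p q : M, dist p q ≤ D)
    {ρ L : ℝ} (hρ : ρ < D) (hL : L < 4 * D) {E₁ ε : ℝ} (hE₁ : E₁ < (2 * D) ^ 2 / m) (hε : 0 < ε) :
    ∃ N : ℕ, ∀ n ≥ N, ∀ z ∈ PS M m ρ L, En z ≤ E₁ → En ((Mp e)^[n] z) < ε := by
  let X : Set (PS M m ρ L) := {z | En z.1 ≤ E₁}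
  have := compactSpace_PS (M := M) (m := m) ρ L
  have hXc : IsClosed X := isClosed_le (continuous_En.comp continuous_subtype_val) continuous_const
  have : CompactSpace X := isCompact_iff_compactSpace.1 hXc.isCompact
  have hSm : ∀ z : X, Sp F hB hρ z.1 ∈ X := fun z =>
    (En_Mp_le' F hB fun i => (z.1.2.1 i).trans_lt hρ).trans z.2
  let S : X → X := fun z => ⟨Sp F hB hρ z.1, hSm z⟩
  have hS : Continuous S :=
    Continuous.subtype_mk ((continuous_Sp F hB hρ).comp continuous_subtype_val) _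
  have hcr : ∀ z : X, En (S z).1.1 = En z.1.1 → En z.1.1 = 0 := fun z hz => by
    rcases crit_eq F hD hB hdiam (fun i => (z.1.2.1 i).trans_lt hρ) (z.1.2.2.trans_lt hL) hz with
      h | h
    · exact h
    · exact absurd h.1 (z.2.trans_lt hE₁).ne
  obtain ⟨N, hN⟩ := attract (X := X) (S := S) hS
    (E := fun z => En z.1.1) (continuous_En.comp (continuous_subtype_val.comp continuous_subtype_val))
    (fun z => En_Mp_le' F hB fun i => (z.1.2.1 i).trans_lt hρ) (E₀ := ε)
    (fun z hz => by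
      left
      show En z.1.1 < ε
      rw [hcr z hz]
      exact hε)
    (W := ∅) isOpen_empty
    (fun z hz hz0 => absurd ((hcr z hz).symm.trans hz0) hε.ne)
  have hit : ∀ (n : ℕ) (z : X), (S^[n] z).1 = (Sp F hB hρ)^[n] z.1 := by
    intro n z
    induction n with
    | zero => rfl
    | succ n ih =>
      rw [Function.iterate_succ_apply', Function.iterate_succ_apply', ← ih]
  refine ⟨N, fun n hn z hz hzE => ?_⟩
  have h1 := hN n hn ⟨⟨z, hz⟩, hzE⟩
  rw [hit, Sp_iter F hB hρ n ⟨z, hz⟩] at h1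
  rcases h1 with h1 | h1
  · exact h1
  · exact absurd h1 (notMem_empty _)

/-- **collapse**, off a neighbourhood of the geodesic polygons -/
theorem collapse_off (F : Facts e) (hD : 0 < D) (hB : InjGE e D)
    (hdiam : ∀ p q : M, dist p q ≤ D) {ρ L : ℝ} (hρ : ρ < D) (hL : L < 4 * D)
    {W : Set (ZMod m → M)} (hW : IsOpen W) (hgW : ∀ v : UT E M, gp e D m v ∈ W) {ε : ℝ}
    (hε : 0 < ε) : ∃ N : ℕ, ∀ n ≥ N, ∀ z ∈ PS M m ρ L, En z ≤ (2 * D) ^ 2 / m → z ∉ W →
      En ((Mp e)^[n] z) < ε := by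
  let K : Set (PS M m ρ L) := {z | En z.1 ≤ (2 * D) ^ 2 / m} ∩ {z | z.1 ∉ W}
  have := compactSpace_PS (M := M) (m := m) ρ L
  have hK : IsCompact K := ((isClosed_le (continuous_En.comp continuous_subtype_val)
    continuous_const).inter ((hW.preimage continuous_subtype_val).isClosed_compl)).isCompact
  obtain ⟨E₁, hE₁, hmax⟩ : ∃ E₁ < (2 * D) ^ 2 / m, ∀ z ∈ K, En (Sp F hB hρ z).1 ≤ E₁ := by
    rcases K.eq_empty_or_nonempty with h | h
    · refine ⟨(2 * D) ^ 2 / m - 1, by linarith, fun z hz => ?_⟩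
      rw [h] at hz
      exact absurd hz (notMem_empty _)
    · obtain ⟨u, hu, hmax⟩ := hK.exists_isMaxOn h
        ((continuous_En.comp continuous_subtype_val).comp (continuous_Sp F hB hρ)).continuousOn
      refine ⟨En (Sp F hB hρ u).1, ?_, fun z hz => hmax hz⟩
      have h1 : En (Sp F hB hρ u).1 ≤ En u.1 :=
        En_Mp_le' F hB fun i => (u.2.1 i).trans_lt hρ
      refine lt_of_le_of_ne (h1.trans hu.1) fun h2 => ?_
      have h3 : En (Mp e u.1) = En u.1 := le_antisymm h1 (hu.1.trans h2.symm.le)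
      have hm0 : (0 : ℝ) < m := Nat.cast_pos.2 (NeZero.pos m)
      have hE0 : 0 < (2 * D) ^ 2 / m := by positivity
      rcases crit_eq F hD hB hdiam (fun i => (u.2.1 i).trans_lt hρ) (u.2.2.trans_lt hL) h3 with
        h4 | ⟨_, _, v, hv⟩
      · have h5 : En (Sp F hB hρ u).1 = 0 := h3.trans h4
        rw [h5] at h2
        exact hE0.ne h2
      · exact hu.2 (by rw [hv]; exact hgW v)
  obtain ⟨N, hN⟩ := collapse F hD hB hdiam hρ hL (m := m) hE₁ hε
  refine ⟨N + 1, fun n hn z hz h1 h2 => ?_⟩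
  obtain ⟨k, rfl⟩ := Nat.exists_eq_add_of_le' (Nat.le_of_add_left_le hn : 1 ≤ n)
  rw [Function.iterate_succ_apply]
  exact hN k (by omega) _ (Mp_mem F hB hρ hz) (hmax ⟨z, hz⟩ ⟨h1, h2⟩)

end

end Vale.Agent.P231.S3A
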