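import Vale.Agent.P231.WD.GeoInst
import Vale.Agent.P231.S3A.Attr

/-!
# P231, stage 3, block S3-a: midpoints
-/

set_option maxSynthPendingDepth 3
set_option linter.unusedSectionVars false
set_option linter.unusedVariables false

open Bundle Manifold Set Filter Module
open scoped ContDiff Manifold Topology

namespace Vale.Agent.P231.S3A

noncomputable section

open Vale.Agent.P234 Vale.Agent.P231 Vale.Agent.P231.H775 Vale.Agent.P231.Fm Vale.Agent.P231.W
open Vale.Agent.P231.H766 Vale.Agent.P231.WD3

variable {E : Type*} [NormedAddCommGroup E] [NormedSpace ℝ E] [FiniteDimensional ℝ E]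
  {M : Type*} [MetricSpace M] [ChartedSpace E M] [IsManifold 𝓘(ℝ, E) ∞ M]
  [RiemannianBundle (fun x : M => TangentSpace 𝓘(ℝ, E) x)]
  [IsContMDiffRiemannianBundle 𝓘(ℝ, E) ∞ E (fun x : M => TangentSpace 𝓘(ℝ, E) x)]
  {e : ∀ x : M, TangentSpace 𝓘(ℝ, E) x → M}

/-- the midpoint -/
def mid (e : ∀ x : M, TangentSpace 𝓘(ℝ, E) x → M) (x y : M) : M := gG e x y (1 / 2)

variable [CompactSpace M] [ConnectedSpace M] [IsRiemannianManifold 𝓘(ℝ, E) M] {D : ℝ}

theorem half_mem : (1 / 2 : ℝ) ∈ Icc (0 : ℝ) 1 := ⟨by norm_num, by norm_num⟩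

theorem dist_mid_left (F : Facts e) (hB : InjGE e D) {x y : M} (h : dist x y < D) :
    dist x (mid e x y) = dist x y / 2 := by
  have h1 := dist_gG_left F hB h half_mem
  unfold mid
  rw [h1]
  ring

theorem dist_mid_right (F : Facts e) (hB : InjGE e D) {x y : M} (h : dist x y < D) :
    dist (mid e x y) y = dist x y / 2 := by
  have h1 := dist_gG_right F hB h half_mem
  unfold mid
  rw [h1]
  ring

/-- a point between two close points lies on the geodesic -/
theorem eq_gG_of_between (F : Facts e) (hB : InjGE e D) {x y q : M} (hxy : dist x y < D)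
    (h : dist x q + dist q y = dist x y) : ∃ t ∈ Icc (0 : ℝ) 1, q = gG e x y t ∧
      dist x q = t * dist x y := by
  obtain ⟨w, hw, hwy, t, ht0, ht1, htq, htd⟩ := F.between h
  have h1 : ‖w‖ = dist x y := by
    have k : dist x (e x w) = ‖w‖ := hw
    rw [← k, hwy]
  refine ⟨t, ⟨ht0, ht1⟩, ?_, by rw [htd, h1]⟩
  have h2 : nm (E := E) x (w : E) < D := by
    change ‖w‖ < D
    rw [h1]; exact hxy
  have h3 := gG_exp F hB h2 t
  have h4 : e x (w : E) = y := hwy
  rw [h4] at h3
  rw [h3]
  exact htq.symm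

/-- uniqueness of the midpoint -/
theorem eq_mid (F : Facts e) (hB : InjGE e D) {x y q : M} (hxy : dist x y < D)
    (h1 : dist x q = dist x y / 2) (h2 : dist q y = dist x y / 2) : q = mid e x y := by
  obtain ⟨t, ht, hq, hd⟩ := eq_gG_of_between F hB hxy (q := q) (by rw [h1, h2]; ring)
  rcases (dist_nonneg (x := x) (y := y)).eq_or_lt with h0 | h0
  · have hxy' : x = y := dist_eq_zero.1 h0.symm
    have hxq : x = q := dist_eq_zero.1 (by rw [h1, ← h0]; norm_num)
    have h3 := dist_mid_left F hB hxy
    rw [← h0, zero_div] at h3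
    rw [← hxq]
    exact dist_eq_zero.1 h3
  · have ht' : t = 1 / 2 := by
      have h3 : t * dist x y = (1 / 2) * dist x y := by rw [← hd, h1]; ring
      exact mul_right_cancel₀ h0.ne' h3
    rw [hq, ht']
    rfl

/-- the midpoint is continuous -/
theorem continuousOn_mid (F : Facts e) (hB : InjGE e D) :
    ContinuousOn (fun p : M × M => mid e p.1 p.2) {p | dist p.1 p.2 < D} := by
  intro p hp
  refine ContinuousAt.continuousWithinAt ?_
  have hopen : IsOpen {p : M × M | dist p.1 p.2 < D} :=
    isOpen_lt (continuous_fst.dist continuous_snd) continuous_const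
  refine isCompact_univ.tendsto_nhds_of_unique_mapClusterPt (Eventually.of_forall fun _ => mem_univ _)
    fun q _ hq => ?_
  -- the closed conditions
  have hcl : ∀ {φ ψ : M × M → ℝ}, Continuous φ → Continuous ψ → ∀ {g : M × M → M → ℝ},
      Continuous (fun z : (M × M) × M => g z.1 z.2) →
      (∀ᶠ z in 𝓝 p, g z (mid e z.1 z.2) = φ z) → g p q = φ p := by
    intro φ ψ hφ _ g hg hev
    by_contra hne
    obtain ⟨u, v, hu, hv, hgu, hφv, huv⟩ := t2_separation hne
    have h1 : ∀ᶠ z in 𝓝 (p, q), g z.1 z.2 ∈ u := hg.continuousAt (hu.mem_nhds hgu)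
    rw [nhds_prod_eq] at h1
    obtain ⟨a, ha, b, hb, hab⟩ := Filter.eventually_prod_iff.1 h1
    have h2 : ∀ᶠ z in 𝓝 p, φ z ∈ v := hφ.continuousAt (hv.mem_nhds hφv)
    have h3 : ∃ᶠ z in 𝓝 p, b (mid e z.1 z.2) := hq.frequently hb
    obtain ⟨z, hz3, hz1, hz2, hz4⟩ := (h3.and_eventually (ha.and (h2.and hev))).exists
    have h5 := hab hz1 hz3
    rw [hz4] at h5
    exact disjoint_left.1 huv h5 hz2
  have hev : ∀ᶠ z in 𝓝 p, dist z.1 z.2 < D := hopen.mem_nhds hp
  have hdist : Continuous fun z : M × M => dist z.1 z.2 / 2 :=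
    (continuous_fst.dist continuous_snd).div_const 2
  have h1 : dist p.1 q = dist p.1 p.2 / 2 :=
    hcl hdist hdist (g := fun z m => dist z.1 m)
      ((continuous_fst.fst).dist continuous_snd) (by
        filter_upwards [hev] with z hz using dist_mid_left F hB hz)
  have h2 : dist q p.2 = dist p.1 p.2 / 2 :=
    hcl hdist hdist (g := fun z m => dist m z.2)
      (continuous_snd.dist (continuous_fst.snd)) (by
        filter_upwards [hev] with z hz using dist_mid_right F hB hz)
  exact eq_mid F hB hp h1 h2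

/-- two unit vectors whose geodesics meet at a short time agree -/
theorem unit_unique (F : Facts e) (hB : InjGE e D) {x : M} {u v : E} (hu : nm x u = 1)
    (hv : nm x v = 1) {s : ℝ} (hs : 0 < s) (hsD : s < D) (h : gam e x u s = gam e x v s) :
    u = v := by
  have h1 : nm x (s • u) < D := by rw [nm_smul, hu, mul_one, abs_of_pos hs]; exact hsD
  have h2 : nm x (s • v) < D := by rw [nm_smul, hv, mul_one, abs_of_pos hs]; exact hsD
  have h3 := lm_eq F hB h1
  have h4 := lm_eq F hB h2
  have h5 : (e x (s • u : E) : M) = e x (s • v : E) := h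
  rw [h5, h4] at h3
  exact (smul_right_injective E hs.ne' h3).symm

/-- two points at distance less than `D` lie on a geodesic -/
theorem exists_unit (F : Facts e) (hB : InjGE e D) {x y : M} (h0 : x ≠ y) (hxy : dist x y < D) :
    ∃ u : E, nm x u = 1 ∧ y = gam e x u (dist x y) := by
  have hd : 0 < dist x y := dist_pos.2 h0
  refine ⟨(dist x y)⁻¹ • lm e x y, ?_, ?_⟩
  · rw [nm_smul, nm_lm F hB hxy, abs_of_pos (inv_pos.2 hd), inv_mul_cancel₀ hd.ne']
  · unfold gam
    have h1 : (dist x y • ((dist x y)⁻¹ • lm e x y : E) : E) = lm e x y := by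
      rw [smul_smul, mul_inv_cancel₀ hd.ne', one_smul]
    change y = e x (dist x y • ((dist x y)⁻¹ • lm e x y : E) : E)
    rw [h1]
    exact (exp_lm F hB hxy).symm

/-- `y` is a straight vertex between `x` and `z`: the geodesic continues -/
theorem straight (F : Facts e) (hB : InjGE e D) {x y z : M} {s : ℝ} (hs : 0 < s) (hsD : s < D)
    (hxy : dist x y = s) (hyz : dist y z = s) (hm : dist (mid e x y) (mid e y z) = s) {u : E}
    (hu : nm x u = 1) (hy : y = gam e x u s) : z = gam e x u (2 * s) := by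
  set p := mid e x y with hp
  set q := mid e y z with hq
  have hxyD : dist x y < D := by rw [hxy]; exact hsD
  have hyzD : dist y z < D := by rw [hyz]; exact hsD
  have hpq : dist p q < D := by rw [hm]; exact hsD
  have hpy : dist p y = s / 2 := by rw [hp, dist_mid_right F hB hxyD, hxy]
  have hyq : dist y q = s / 2 := by rw [hq, dist_mid_left F hB hyzD, hyz]
  have hs2 : 0 < s / 2 := half_pos hs
  have hs2D : s / 2 < D := by linarith
  -- `p` on the geodesic of `u`
  have hpu : p = gam e x u (s / 2) := by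
    rw [hp, hy]
    unfold mid
    rw [gG_foot_gam F hB hu (by rw [abs_of_pos hs]; exact hsD)]
    congr 1
    ring
  -- the geodesic from `p` to `q`
  have hpq0 : p ≠ q := by
    intro h
    rw [h, dist_self] at hm
    exact hs.ne hm
  obtain ⟨a, ha, hqa⟩ := exists_unit F hB hpq0 hpq
  rw [hm] at hqa
  have hya : y = gam e p a (s / 2) := by
    have h1 : y = mid e p q := eq_mid F hB hpq (by rw [hpy, hm]) (by rw [hyq, hm])
    rw [h1, hqa]
    unfold mid
    rw [gG_foot_gam F hB ha (by rw [abs_of_pos hs]; exact hsD)]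
    congr 1
    ring
  -- the direction at `p`
  set b := vel e x u (s / 2) with hb
  have hb1 : nm p b = 1 := by rw [hpu, hb, nm_vel F, hu]
  have hyb : y = gam e p b (s / 2) := by
    rw [hpu, hb, gam_flow F, hy]
    congr 1
    ring
  have hab : a = b := unit_unique F hB ha hb1 hs2 hs2D (hya.symm.trans hyb)
  have hqu : q = gam e x u (3 * s / 2) := by
    rw [hqa, hab, hpu, hb, gam_flow F]
    congr 1
    ring
  -- the direction at `y`
  have hyz0 : y ≠ z := by
    intro h
    rw [h, dist_self] at hyz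
    exact hs.ne hyz
  obtain ⟨c, hc, hzc⟩ := exists_unit F hB hyz0 hyzD
  rw [hyz] at hzc
  have hqc : q = gam e y c (s / 2) := by
    rw [hq, hzc]
    unfold mid
    rw [gG_foot_gam F hB hc (by rw [abs_of_pos hs]; exact hsD)]
    congr 1
    ring
  set d := vel e x u s with hd
  have hd1 : nm y d = 1 := by rw [hy, hd, nm_vel F, hu]
  have hqd : q = gam e y d (s / 2) := by
    rw [hqu, hy, hd, gam_flow F]
    congr 1
    ring
  have hcd : c = d := unit_unique F hB hc hd1 hs2 hs2D (hqc.symm.trans hqd)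
  rw [hzc, hcd, hy, hd, gam_flow F]
  congr 1
  ring

end

end Vale.Agent.P231.S3A
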