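import Vale.Agent.P231.S3A.Mid

/-!
# P231, stage 3, block S3-a: the midpoint map on closed polygons
-/

set_option maxSynthPendingDepth 3
set_option linter.unusedSectionVars false
set_option linter.unusedVariables false

open Bundle Manifold Set Filter Module
open scoped ContDiff Manifold Topology

namespace Vale.Agent.P231.S3A

noncomputable section

open Vale.Agent.P234 Vale.Agent.P231 Vale.Agent.P231.H775 Vale.Agent.P231.Fm Vale.Agent.P231.W
open Vale.Agent.P231.H766 Vale.Agent.P231.WD3

section Metric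

variable {M : Type*} [MetricSpace M] {m : ℕ} [NeZero m]

/-- the sides of a closed polygon -/
def sd (z : ZMod m → M) (i : ZMod m) : ℝ := dist (z i) (z (i + 1))

/-- the energy of a closed polygon -/
def En (z : ZMod m → M) : ℝ := ∑ i, sd z i ^ 2

/-- the perimeter of a closed polygon -/
def Pe (z : ZMod m → M) : ℝ := ∑ i, sd z i

/-- closed polygons with short sides and bounded perimeter -/
def PS (M : Type*) [MetricSpace M] (m : ℕ) [NeZero m] (ρ L : ℝ) : Set (ZMod m → M) :=
  {z | (∀ i, sd z i ≤ ρ) ∧ Pe z ≤ L}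

theorem continuous_sd (i : ZMod m) : Continuous fun z : ZMod m → M => sd z i :=
  (continuous_apply i).dist (continuous_apply (i + 1))

theorem continuous_En : Continuous (En : (ZMod m → M) → ℝ) :=
  continuous_finsetSum _ fun i _ => (continuous_sd i).pow 2

theorem continuous_Pe : Continuous (Pe : (ZMod m → M) → ℝ) :=
  continuous_finsetSum _ fun i _ => continuous_sd i

theorem isClosed_PS (ρ L : ℝ) : IsClosed (PS M m ρ L) := by
  have h1 : PS M m ρ L = (⋂ i, {z | sd z i ≤ ρ}) ∩ {z | Pe z ≤ L} := by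
    ext z
    simp [PS]
  rw [h1]
  exact (isClosed_iInter fun i => isClosed_le (continuous_sd i) continuous_const).inter
    (isClosed_le continuous_Pe continuous_const)

theorem sum_shift (f : ZMod m → ℝ) : ∑ i, f (i + 1) = ∑ i, f i :=
  Fintype.sum_equiv (Equiv.addRight (1 : ZMod m)) _ _ fun _ => rfl

theorem sd_nonneg (z : ZMod m → M) (i : ZMod m) : 0 ≤ sd z i := dist_nonneg

/-- the perimeter is bounded by the energy -/
theorem Pe_sq_le (z : ZMod m → M) : Pe z ^ 2 ≤ m * En z := by
  have h := sq_sum_le_card_mul_sum_sq (s := Finset.univ) (f := fun i => sd z i)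
  rw [Finset.card_univ, ZMod.card] at h
  exact h

end Metric

variable {E : Type*} [NormedAddCommGroup E] [NormedSpace ℝ E] [FiniteDimensional ℝ E]
  {M : Type*} [MetricSpace M] [ChartedSpace E M] [IsManifold 𝓘(ℝ, E) ∞ M]
  [RiemannianBundle (fun x : M => TangentSpace 𝓘(ℝ, E) x)]
  [IsContMDiffRiemannianBundle 𝓘(ℝ, E) ∞ E (fun x : M => TangentSpace 𝓘(ℝ, E) x)]
  {e : ∀ x : M, TangentSpace 𝓘(ℝ, E) x → M}

variable {m : ℕ} [NeZero m]

/-- the midpoint polygon -/
def Mp (e : ∀ x : M, TangentSpace 𝓘(ℝ, E) x → M) (z : ZMod m → M) (i : ZMod m) : M :=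
  mid e (z i) (z (i + 1))

variable [CompactSpace M] [ConnectedSpace M] [IsRiemannianManifold 𝓘(ℝ, E) M] {D : ℝ}

theorem sd_Mp_le (F : Facts e) (hB : InjGE e D) {z : ZMod m → M} (hz : ∀ i, sd z i < D)
    (i : ZMod m) : sd (Mp e z) i ≤ (sd z i + sd z (i + 1)) / 2 := by
  have h1 := dist_mid_right F hB (hz i)
  have h2 := dist_mid_left F hB (hz (i + 1))
  have h3 := dist_triangle (mid e (z i) (z (i + 1))) (z (i + 1)) (mid e (z (i + 1)) (z (i + 1 + 1)))
  unfold sd Mp at *
  rw [h1, h2] at h3
  linarith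

theorem Mp_mem (F : Facts e) (hB : InjGE e D) {ρ L : ℝ} (hρ : ρ < D) {z : ZMod m → M}
    (hz : z ∈ PS M m ρ L) : Mp e z ∈ PS M m ρ L := by
  have hz' : ∀ i, sd z i < D := fun i => (hz.1 i).trans_lt hρ
  refine ⟨fun i => ?_, ?_⟩
  · have h1 := sd_Mp_le F hB hz' i
    have h2 := hz.1 i
    have h3 := hz.1 (i + 1)
    linarith
  · have h1 : Pe (Mp e z) ≤ ∑ i, (sd z i + sd z (i + 1)) / 2 :=
      Finset.sum_le_sum fun i _ => sd_Mp_le F hB hz' i
    have h2 : ∑ i, (sd z i + sd z (i + 1)) / 2 = Pe z := by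
      rw [← Finset.sum_div, Finset.sum_add_distrib, sum_shift (fun i => sd z i)]
      unfold Pe
      ring
    rw [h2] at h1
    exact h1.trans hz.2

/-- the energy does not increase; the loss is at least the variation of the sides -/
theorem En_Mp_le (F : Facts e) (hB : InjGE e D) {z : ZMod m → M} (hz : ∀ i, sd z i < D) :
    En (Mp e z) + (1 / 4) * ∑ i, (sd z i - sd z (i + 1)) ^ 2 ≤ En z := by
  have h1 : En (Mp e z) ≤ ∑ i, ((sd z i + sd z (i + 1)) / 2) ^ 2 :=
    Finset.sum_le_sum fun i _ => pow_le_pow_left₀ (sd_nonneg _ i) (sd_Mp_le F hB hz i) 2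
  have h2 : ∑ i, ((sd z i + sd z (i + 1)) / 2) ^ 2 +
      (1 / 4) * ∑ i, (sd z i - sd z (i + 1)) ^ 2 = En z := by
    have h3 : ∑ i, ((sd z i + sd z (i + 1)) / 2) ^ 2 +
        (1 / 4) * ∑ i, (sd z i - sd z (i + 1)) ^ 2 =
        ∑ i, (sd z i ^ 2 / 2 + sd z (i + 1) ^ 2 / 2) := by
      rw [Finset.mul_sum, ← Finset.sum_add_distrib]
      refine Finset.sum_congr rfl fun i _ => ?_
      ring
    rw [h3, Finset.sum_add_distrib, sum_shift (fun i => sd z i ^ 2 / 2), ← Finset.sum_add_distrib]
    unfold En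
    refine Finset.sum_congr rfl fun i _ => ?_
    ring
  linarith

/-- no loss of energy: all sides are equal, and so are those of the midpoint polygon -/
theorem sides_eq (F : Facts e) (hB : InjGE e D) {z : ZMod m → M} (hz : ∀ i, sd z i < D)
    (h : En (Mp e z) = En z) : ∃ s : ℝ, 0 ≤ s ∧ (∀ i, sd z i = s) ∧ ∀ i, sd (Mp e z) i = s := by
  have h1 := En_Mp_le F hB hz
  have h2 : ∑ i, (sd z i - sd z (i + 1)) ^ 2 ≤ 0 := by linarith
  have h3 : ∀ i, sd z (i + 1) = sd z i := by
    have h4 := (Finset.sum_eq_zero_iff_of_nonneg (s := Finset.univ)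
      (f := fun i => (sd z i - sd z (i + 1)) ^ 2) (fun i _ => sq_nonneg _)).1
      (le_antisymm h2 (Finset.sum_nonneg fun i _ => sq_nonneg _))
    intro i
    have h5 := h4 i (Finset.mem_univ i)
    have h6 := pow_eq_zero_iff (two_ne_zero) |>.1 h5
    linarith
  have h4 : ∀ n : ℕ, sd z (n : ZMod m) = sd z 0 := by
    intro n
    induction n with
    | zero => rw [Nat.cast_zero]
    | succ n ih => rw [Nat.cast_succ, h3, ih]
  have h5 : ∀ i, sd z i = sd z 0 := fun i => by
    have h6 := h4 i.val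
    rwa [ZMod.natCast_zmod_val] at h6
  refine ⟨sd z 0, sd_nonneg z 0, h5, ?_⟩
  have h6 : ∀ i, sd (Mp e z) i ≤ sd z 0 := fun i => by
    have h7 := sd_Mp_le F hB hz i
    rw [h5 i, h5 (i + 1)] at h7
    linarith
  have h7 : ∑ i, (sd z i ^ 2 - sd (Mp e z) i ^ 2) = 0 := by
    rw [Finset.sum_sub_distrib]
    unfold En at h
    linarith
  have h8 := (Finset.sum_eq_zero_iff_of_nonneg (s := Finset.univ)
      (f := fun i => sd z i ^ 2 - sd (Mp e z) i ^ 2) (fun i _ => by
        have h9 := pow_le_pow_left₀ (sd_nonneg _ i) (h6 i) 2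
        rw [h5 i]
        linarith)).1 h7
  intro i
  have h9 := h8 i (Finset.mem_univ i)
  rw [h5 i] at h9
  have h10 : sd (Mp e z) i ^ 2 = sd z 0 ^ 2 := by linarith
  exact (pow_left_inj₀ (sd_nonneg _ i) (sd_nonneg _ 0) two_ne_zero).1 h10

/-- critical polygons are geodesic polygons -/
theorem crit_geod (F : Facts e) (hB : InjGE e D) {z : ZMod m → M} (hz : ∀ i, sd z i < D)
    {s : ℝ} (hs : 0 < s) (h1 : ∀ i, sd z i = s) (h2 : ∀ i, sd (Mp e z) i = s) :
    ∃ u : E, nm (z 0) u = 1 ∧ ∀ n : ℕ, z (n : ZMod m) = gam e (z 0) u (n * s) := by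
  have hsD : s < D := by rw [← h1 0]; exact hz 0
  have h01 : z 0 ≠ z (0 + 1) := by
    intro h
    have k := h1 0
    unfold sd at k
    rw [← h, dist_self] at k
    exact hs.ne k
  obtain ⟨u, hu, hz1⟩ := exists_unit F hB h01 (hz 0)
  have hd0 : dist (z 0) (z (0 + 1)) = s := h1 0
  rw [hd0] at hz1
  refine ⟨u, hu, ?_⟩
  have key : ∀ n : ℕ, z (n : ZMod m) = gam e (z 0) u (n * s) ∧
      z ((n : ZMod m) + 1) = gam e (z 0) u ((n + 1) * s) := by
    intro n
    induction n with
    | zero =>
      refine ⟨?_, ?_⟩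
      · rw [Nat.cast_zero, Nat.cast_zero, zero_mul, gam_zero F.isExp]
      · rw [Nat.cast_zero, Nat.cast_zero, zero_add (1 : ℝ), one_mul]
        exact hz1
    | succ n ih =>
      obtain ⟨ih1, ih2⟩ := ih
      refine ⟨?_, ?_⟩
      · rw [Nat.cast_succ, ih2, Nat.cast_succ]
      · set a := vel e (z 0) u (n * s) with ha
        have ha1 : nm (z (n : ZMod m)) a = 1 := by rw [ih1, ha, nm_vel F, hu]
        have h3 : z ((n : ZMod m) + 1) = gam e (z (n : ZMod m)) a s := by
          rw [ih2, ih1, ha, gam_flow F]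
          congr 1
          ring
        have h4 := straight F hB hs hsD (h1 (n : ZMod m)) (h1 ((n : ZMod m) + 1))
          (h2 (n : ZMod m)) ha1 h3
        rw [Nat.cast_succ, h4, ih1, ha, gam_flow F]
        congr 1
        push_cast
        ring
  exact fun n => (key n).1

/-- lengths of closed geodesics below `4 D` -/
theorem closed_len (F : Facts e) (hD : 0 < D) (hB : InjGE e D)
    (hdiam : ∀ p q : M, dist p q ≤ D) {x : M} {u : E} (hu : nm x u = 1) {t : ℝ} (ht0 : 0 < t)
    (ht : t < 4 * D) (h : gam e x u t = x) : t = 2 * D := by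
  have hper : ∀ t, gam e x u (t + 2 * D) = gam e x u t := fun t =>
    gam_per F hD.le (fun (x : M) (v : E) hv => closed_of_inj_diam F hD hB hdiam x v hv) x u hu t
  have hfar : ∀ t, 0 < t → t < 2 * D → gam e x u t ≠ x := by
    intro t h0 h2 hx
    have key : ∀ t, 0 < t → t ≤ D → gam e x u t ≠ x := by
      intro t h0 h1 hx
      have k1 : nm x (t • u) = t := by rw [nm_smul, hu, mul_one, abs_of_pos h0]
      have k1' : nm x (t • u) ≤ D := by rw [k1]; exact h1
      have k2 := hB x (t • u : E) k1'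
      have k3 : dist x (gam e x u t) = t := k2.trans k1
      rw [hx, dist_self] at k3
      exact h0.ne k3
    rcases le_or_gt t D with h3 | h3
    · exact key t h0 h3 hx
    · -- go backwards
      have k1 : nm x (-u) = 1 := by
        have k : nm x (-u) = nm x u := norm_neg (E := TangentSpace 𝓘(ℝ, E) x) _
        rw [k, hu]
      have k2 : gam e x (-u) (2 * D - t) = gam e x u (t - 2 * D) := by
        unfold gam
        congr 1
        change (2 * D - t) • (-u) = (t - 2 * D) • u
        rw [smul_neg, ← neg_smul]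
        congr 1
        ring
      have k3 : gam e x u (t - 2 * D) = x := by
        have k4 := hper (t - 2 * D)
        rw [sub_add_cancel] at k4
        rw [← k4]
        exact hx
      have k5 : gam e x (-u) (2 * D - t) = x := k2.trans k3
      have k6 : ∀ t, 0 < t → t ≤ D → gam e x (-u) t ≠ x := by
        intro t h0 h1 hx
        have k1' : nm x (t • (-u)) = t := by rw [nm_smul, k1, mul_one, abs_of_pos h0]
        have k1'' : nm x (t • (-u)) ≤ D := by rw [k1']; exact h1
        have k2' := hB x (t • (-u) : E) k1''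
        have k3' : dist x (gam e x (-u) t) = t := k2'.trans k1'
        rw [hx, dist_self] at k3'
        exact h0.ne k3'
      exact k6 (2 * D - t) (by linarith) (by linarith) k5
  rcases lt_trichotomy t (2 * D) with h1 | h1 | h1
  · exact absurd h (hfar t ht0 h1)
  · exact h1
  · have h2 := hper (t - 2 * D)
    rw [sub_add_cancel] at h2
    exact absurd (h2.symm.trans h) (hfar (t - 2 * D) (by linarith) (by linarith))

/-- the geodesic polygon of `v` -/
def gp (e : ∀ x : M, TangentSpace 𝓘(ℝ, E) x → M) (D : ℝ) (m : ℕ) (v : UT E M) (i : ZMod m) : M :=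
  gm e (v, i.val * (2 * D / m))

/-- critical polygons of positive energy and perimeter `< 4 D` -/
theorem crit_eq (F : Facts e) (hD : 0 < D) (hB : InjGE e D)
    (hdiam : ∀ p q : M, dist p q ≤ D) {z : ZMod m → M} (hz : ∀ i, sd z i < D)
    (hP : Pe z < 4 * D) (h : En (Mp e z) = En z) :
    En z = 0 ∨ (En z = (2 * D) ^ 2 / m ∧ (∀ i, sd z i = 2 * D / m) ∧
      ∃ v : UT E M, z = gp e D m v) := by
  obtain ⟨s, hs0, h1, h2⟩ := sides_eq F hB hz h
  have hm : (0 : ℝ) < m := Nat.cast_pos.2 (NeZero.pos m)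
  rcases hs0.eq_or_lt with hs | hs
  · left
    unfold En
    refine Finset.sum_eq_zero fun i _ => ?_
    rw [h1 i, ← hs]
    norm_num
  · right
    obtain ⟨u, hu, hg⟩ := crit_geod F hB hz hs h1 h2
    have hPe : Pe z = m * s := by
      unfold Pe
      rw [Finset.sum_congr rfl fun i _ => h1 i, Finset.sum_const, Finset.card_univ, ZMod.card,
        nsmul_eq_mul]
    have hclose : gam e (z 0) u (m * s) = z 0 := by
      have k := hg m
      rw [ZMod.natCast_self] at k
      exact k.symm
    have hms := closed_len F hD hB hdiam hu (mul_pos hm hs) (by rw [← hPe]; exact hP) hclose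
    have hs' : s = 2 * D / m := by
      rw [← hms]
      field_simp
    refine ⟨?_, fun i => (h1 i).trans hs', W.mk (z 0) u hu, ?_⟩
    · unfold En
      rw [Finset.sum_congr rfl fun i _ => congrArg (· ^ 2) (h1 i), Finset.sum_const,
        Finset.card_univ, ZMod.card, nsmul_eq_mul, hs']
      field_simp
    · funext i
      have k := hg i.val
      rw [ZMod.natCast_zmod_val] at k
      rw [k, hs']
      rfl

end

end Vale.Agent.P231.S3A
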